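import Mathlib.Tactic
import Mathlib.Analysis.Real.Sqrt

/-!
Polynomial certificate for the subadditivity of the mean square deviation of three-state posteriors.
-/

namespace Vale.Agent.P154.Ferro3

noncomputable section

/-- The polynomial whose sign gives subadditivity. -/
def certF (s c t d : ℝ) : ℝ :=
  (2*c*t + 2*d*s - 2*c*d - 2*s^2*t - 2*s*t^2 - 2*c*t^2 - 2*d*s^2 - 2*s^2*t^2 + 2*s*c*d + 2*t*c*d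
    + 6*s*c*t^2 + 6*s^2*t*d - 8*s*t*c*d + 12/25*(s*t)) * ((1 - s) * (1 - t))
    + ((1 - s)^2 - (1 - 3*s + 2*c)) * ((1 - t)^2 - (1 - 3*t + 2*d)) / 2

set_option maxHeartbeats 1000000 in
theorem certF_hi_hi {a b : ℝ} (ha0 : 0 ≤ a) (ha1 : a ≤ 1) (hb0 : 0 ≤ b) (hb1 : b ≤ 1) :
    0 ≤ certF (a^2) (a^3) (b^2) (b^3) := by
  obtain ⟨x, hx⟩ : ∃ x : NNReal, (x : ℝ) = a := ⟨⟨a, by linarith⟩, rfl⟩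
  obtain ⟨x', hx'⟩ : ∃ x' : NNReal, (x' : ℝ) = 1 - a := ⟨⟨1 - a, by linarith⟩, rfl⟩
  obtain ⟨y, hy⟩ : ∃ y : NNReal, (y : ℝ) = b := ⟨⟨b, by linarith⟩, rfl⟩
  obtain ⟨y', hy'⟩ : ∃ y' : NNReal, (y' : ℝ) = 1 - b := ⟨⟨1 - b, by linarith⟩, rfl⟩
  have key : certF (a^2) (a^3) (b^2) (b^3) =
      a^2 * b^2 * (1 - a)^1 * (1 - b)^1 * (
        (49/50)*((x:ℝ)^0*(x':ℝ)^4*((y:ℝ)^0*(y':ℝ)^4)) +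
        (59/10)*((x:ℝ)^0*(x':ℝ)^4*((y:ℝ)^1*(y':ℝ)^3)) +
        (591/50)*((x:ℝ)^0*(x':ℝ)^4*((y:ℝ)^2*(y':ℝ)^2)) +
        (393/50)*((x:ℝ)^0*(x':ℝ)^4*((y:ℝ)^3*(y':ℝ)^1)) +
        (24/25)*((x:ℝ)^0*(x':ℝ)^4*((y:ℝ)^4*(y':ℝ)^0)) +
        (59/10)*((x:ℝ)^1*(x':ℝ)^3*((y:ℝ)^0*(y':ℝ)^4)) +
        (69/2)*((x:ℝ)^1*(x':ℝ)^3*((y:ℝ)^1*(y':ℝ)^3)) +
        (641/10)*((x:ℝ)^1*(x':ℝ)^3*((y:ℝ)^2*(y':ℝ)^2)) +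
        (383/10)*((x:ℝ)^1*(x':ℝ)^3*((y:ℝ)^3*(y':ℝ)^1)) +
        (24/5)*((x:ℝ)^1*(x':ℝ)^3*((y:ℝ)^4*(y':ℝ)^0)) +
        (591/50)*((x:ℝ)^2*(x':ℝ)^2*((y:ℝ)^0*(y':ℝ)^4)) +
        (641/10)*((x:ℝ)^2*(x':ℝ)^2*((y:ℝ)^1*(y':ℝ)^3)) +
        (5069/50)*((x:ℝ)^2*(x':ℝ)^2*((y:ℝ)^2*(y':ℝ)^2)) +
        (2187/50)*((x:ℝ)^2*(x':ℝ)^2*((y:ℝ)^3*(y':ℝ)^1)) +
        (216/25)*((x:ℝ)^2*(x':ℝ)^2*((y:ℝ)^4*(y':ℝ)^0)) +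
        (393/50)*((x:ℝ)^3*(x':ℝ)^1*((y:ℝ)^0*(y':ℝ)^4)) +
        (383/10)*((x:ℝ)^3*(x':ℝ)^1*((y:ℝ)^1*(y':ℝ)^3)) +
        (2187/50)*((x:ℝ)^3*(x':ℝ)^1*((y:ℝ)^2*(y':ℝ)^2)) +
        (1/50)*((x:ℝ)^3*(x':ℝ)^1*((y:ℝ)^3*(y':ℝ)^1)) +
        (168/25)*((x:ℝ)^3*(x':ℝ)^1*((y:ℝ)^4*(y':ℝ)^0)) +
        (24/25)*((x:ℝ)^4*(x':ℝ)^0*((y:ℝ)^0*(y':ℝ)^4)) +
        (24/5)*((x:ℝ)^4*(x':ℝ)^0*((y:ℝ)^1*(y':ℝ)^3)) +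
        (216/25)*((x:ℝ)^4*(x':ℝ)^0*((y:ℝ)^2*(y':ℝ)^2)) +
        (168/25)*((x:ℝ)^4*(x':ℝ)^0*((y:ℝ)^3*(y':ℝ)^1)) +
        (48/25)*((x:ℝ)^4*(x':ℝ)^0*((y:ℝ)^4*(y':ℝ)^0))) := by
    rw [hx, hx', hy, hy']
    unfold certF
    ring
  rw [key]
  have h0 : 0 ≤ a^2 * b^2 * (1 - a)^1 * (1 - b)^1 := by
    apply mul_nonneg
    apply mul_nonneg
    apply mul_nonneg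
    all_goals exact pow_nonneg (by linarith) _
  refine mul_nonneg h0 ?_
  repeat' apply add_nonneg
  all_goals exact mul_nonneg (by norm_num) (mul_nonneg
    (mul_nonneg (pow_nonneg x.2 _) (pow_nonneg x'.2 _))
    (mul_nonneg (pow_nonneg y.2 _) (pow_nonneg y'.2 _)))

set_option maxHeartbeats 1000000 in
theorem certF_hi_neg {a b : ℝ} (ha0 : 0 ≤ a) (ha1 : a ≤ 1) (hb0 : 0 ≤ b) (hb1 : b ≤ (1/2)) :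
    0 ≤ certF (a^2) (a^3) (b^2) (-b^3) := by
  obtain ⟨x, hx⟩ : ∃ x : NNReal, (x : ℝ) = a := ⟨⟨a, by linarith⟩, rfl⟩
  obtain ⟨x', hx'⟩ : ∃ x' : NNReal, (x' : ℝ) = 1 - a := ⟨⟨1 - a, by linarith⟩, rfl⟩
  obtain ⟨y, hy⟩ : ∃ y : NNReal, (y : ℝ) = (2*b) := ⟨⟨(2*b), by linarith⟩, rfl⟩
  obtain ⟨y', hy'⟩ : ∃ y' : NNReal, (y' : ℝ) = 1 - (2*b) := ⟨⟨1 - (2*b), by linarith⟩, rfl⟩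
  have key : certF (a^2) (a^3) (b^2) (-b^3) =
      a^2 * b^2 * (1 - a)^1 * (1 - b)^0 * (
        (49/50)*((x:ℝ)^0*(x':ℝ)^4*((y:ℝ)^0*(y':ℝ)^5)) +
        (22/5)*((x:ℝ)^0*(x':ℝ)^4*((y:ℝ)^1*(y':ℝ)^4)) +
        (1461/200)*((x:ℝ)^0*(x':ℝ)^4*((y:ℝ)^2*(y':ℝ)^3)) +
        (1113/200)*((x:ℝ)^0*(x':ℝ)^4*((y:ℝ)^3*(y':ℝ)^2)) +
        (51/25)*((x:ℝ)^0*(x':ℝ)^4*((y:ℝ)^4*(y':ℝ)^1)) +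
        (9/25)*((x:ℝ)^0*(x':ℝ)^4*((y:ℝ)^5*(y':ℝ)^0)) +
        (59/10)*((x:ℝ)^1*(x':ℝ)^3*((y:ℝ)^0*(y':ℝ)^5)) +
        27*((x:ℝ)^1*(x':ℝ)^3*((y:ℝ)^1*(y':ℝ)^4)) +
        (1811/40)*((x:ℝ)^1*(x':ℝ)^3*((y:ℝ)^2*(y':ℝ)^3)) +
        (1343/40)*((x:ℝ)^1*(x':ℝ)^3*((y:ℝ)^3*(y':ℝ)^2)) +
        (423/40)*((x:ℝ)^1*(x':ℝ)^3*((y:ℝ)^4*(y':ℝ)^1)) +
        (99/80)*((x:ℝ)^1*(x':ℝ)^3*((y:ℝ)^5*(y':ℝ)^0)) +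
        (591/50)*((x:ℝ)^2*(x':ℝ)^2*((y:ℝ)^0*(y':ℝ)^5)) +
        (283/5)*((x:ℝ)^2*(x':ℝ)^2*((y:ℝ)^1*(y':ℝ)^4)) +
        (19799/200)*((x:ℝ)^2*(x':ℝ)^2*((y:ℝ)^2*(y':ℝ)^3)) +
        (14967/200)*((x:ℝ)^2*(x':ℝ)^2*((y:ℝ)^3*(y':ℝ)^2)) +
        (4347/200)*((x:ℝ)^2*(x':ℝ)^2*((y:ℝ)^4*(y':ℝ)^1)) +
        (621/400)*((x:ℝ)^2*(x':ℝ)^2*((y:ℝ)^5*(y':ℝ)^0)) +
        (393/50)*((x:ℝ)^3*(x':ℝ)^1*((y:ℝ)^0*(y':ℝ)^5)) +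
        (199/5)*((x:ℝ)^3*(x':ℝ)^1*((y:ℝ)^1*(y':ℝ)^4)) +
        (14577/200)*((x:ℝ)^3*(x':ℝ)^1*((y:ℝ)^2*(y':ℝ)^3)) +
        (11191/200)*((x:ℝ)^3*(x':ℝ)^1*((y:ℝ)^3*(y':ℝ)^2)) +
        (2931/200)*((x:ℝ)^3*(x':ℝ)^1*((y:ℝ)^4*(y':ℝ)^1)) +
        (27/100)*((x:ℝ)^3*(x':ℝ)^1*((y:ℝ)^5*(y':ℝ)^0)) +
        (24/25)*((x:ℝ)^4*(x':ℝ)^0*((y:ℝ)^0*(y':ℝ)^5)) +
        (24/5)*((x:ℝ)^4*(x':ℝ)^0*((y:ℝ)^1*(y':ℝ)^4)) +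
        (234/25)*((x:ℝ)^4*(x':ℝ)^0*((y:ℝ)^2*(y':ℝ)^3)) +
        (222/25)*((x:ℝ)^4*(x':ℝ)^0*((y:ℝ)^3*(y':ℝ)^2)) +
        (102/25)*((x:ℝ)^4*(x':ℝ)^0*((y:ℝ)^4*(y':ℝ)^1)) +
        (18/25)*((x:ℝ)^4*(x':ℝ)^0*((y:ℝ)^5*(y':ℝ)^0))) := by
    rw [hx, hx', hy, hy']
    unfold certF
    ring
  rw [key]
  have h0 : 0 ≤ a^2 * b^2 * (1 - a)^1 * (1 - b)^0 := by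
    apply mul_nonneg
    apply mul_nonneg
    apply mul_nonneg
    all_goals exact pow_nonneg (by linarith) _
  refine mul_nonneg h0 ?_
  repeat' apply add_nonneg
  all_goals exact mul_nonneg (by norm_num) (mul_nonneg
    (mul_nonneg (pow_nonneg x.2 _) (pow_nonneg x'.2 _))
    (mul_nonneg (pow_nonneg y.2 _) (pow_nonneg y'.2 _)))

set_option maxHeartbeats 1000000 in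
theorem certF_hi_r0 {a b : ℝ} (ha0 : 0 ≤ a) (ha1 : a ≤ 1) (hb0 : (1/2) ≤ b) (hb1 : b ≤ 1) :
    0 ≤ certF (a^2) (a^3) (b^2) ((3*b^2 - 1)/2) := by
  obtain ⟨x, hx⟩ : ∃ x : NNReal, (x : ℝ) = a := ⟨⟨a, by linarith⟩, rfl⟩
  obtain ⟨x', hx'⟩ : ∃ x' : NNReal, (x' : ℝ) = 1 - a := ⟨⟨1 - a, by linarith⟩, rfl⟩
  obtain ⟨y, hy⟩ : ∃ y : NNReal, (y : ℝ) = (2*b - 1) := ⟨⟨(2*b - 1), by linarith⟩, rfl⟩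
  obtain ⟨y', hy'⟩ : ∃ y' : NNReal, (y' : ℝ) = 1 - (2*b - 1) := ⟨⟨1 - (2*b - 1), by linarith⟩, rfl⟩
  have key : certF (a^2) (a^3) (b^2) ((3*b^2 - 1)/2) =
      a^2 * b^0 * (1 - a)^1 * (1 - b)^1 * (
        (9/50)*((x:ℝ)^0*(x':ℝ)^4*((y:ℝ)^0*(y':ℝ)^5)) +
        (489/200)*((x:ℝ)^0*(x':ℝ)^4*((y:ℝ)^1*(y':ℝ)^4)) +
        (3387/400)*((x:ℝ)^0*(x':ℝ)^4*((y:ℝ)^2*(y':ℝ)^3)) +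
        (589/50)*((x:ℝ)^0*(x':ℝ)^4*((y:ℝ)^3*(y':ℝ)^2)) +
        (33/5)*((x:ℝ)^0*(x':ℝ)^4*((y:ℝ)^4*(y':ℝ)^1)) +
        (24/25)*((x:ℝ)^0*(x':ℝ)^4*((y:ℝ)^5*(y':ℝ)^0)) +
        (99/160)*((x:ℝ)^1*(x':ℝ)^3*((y:ℝ)^0*(y':ℝ)^5)) +
        (207/20)*((x:ℝ)^1*(x':ℝ)^3*((y:ℝ)^1*(y':ℝ)^4)) +
        (3017/80)*((x:ℝ)^1*(x':ℝ)^3*((y:ℝ)^2*(y':ℝ)^3)) +
        (539/10)*((x:ℝ)^1*(x':ℝ)^3*((y:ℝ)^3*(y':ℝ)^2)) +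
        31*((x:ℝ)^1*(x':ℝ)^3*((y:ℝ)^4*(y':ℝ)^1)) +
        (24/5)*((x:ℝ)^1*(x':ℝ)^3*((y:ℝ)^5*(y':ℝ)^0)) +
        (621/800)*((x:ℝ)^2*(x':ℝ)^2*((y:ℝ)^0*(y':ℝ)^5)) +
        (297/25)*((x:ℝ)^2*(x':ℝ)^2*((y:ℝ)^1*(y':ℝ)^4)) +
        (17433/400)*((x:ℝ)^2*(x':ℝ)^2*((y:ℝ)^2*(y':ℝ)^3)) +
        (3251/50)*((x:ℝ)^2*(x':ℝ)^2*((y:ℝ)^3*(y':ℝ)^2)) +
        (207/5)*((x:ℝ)^2*(x':ℝ)^2*((y:ℝ)^4*(y':ℝ)^1)) +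
        (216/25)*((x:ℝ)^2*(x':ℝ)^2*((y:ℝ)^5*(y':ℝ)^0)) +
        (27/200)*((x:ℝ)^3*(x':ℝ)^1*((y:ℝ)^0*(y':ℝ)^5)) +
        (123/200)*((x:ℝ)^3*(x':ℝ)^1*((y:ℝ)^1*(y':ℝ)^4)) +
        (1309/400)*((x:ℝ)^3*(x':ℝ)^1*((y:ℝ)^2*(y':ℝ)^3)) +
        (523/50)*((x:ℝ)^3*(x':ℝ)^1*((y:ℝ)^3*(y':ℝ)^2)) +
        (71/5)*((x:ℝ)^3*(x':ℝ)^1*((y:ℝ)^4*(y':ℝ)^1)) +
        (168/25)*((x:ℝ)^3*(x':ℝ)^1*((y:ℝ)^5*(y':ℝ)^0)) +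
        (9/25)*((x:ℝ)^4*(x':ℝ)^0*((y:ℝ)^0*(y':ℝ)^5)) +
        (66/25)*((x:ℝ)^4*(x':ℝ)^0*((y:ℝ)^1*(y':ℝ)^4)) +
        (189/25)*((x:ℝ)^4*(x':ℝ)^0*((y:ℝ)^2*(y':ℝ)^3)) +
        (264/25)*((x:ℝ)^4*(x':ℝ)^0*((y:ℝ)^3*(y':ℝ)^2)) +
        (36/5)*((x:ℝ)^4*(x':ℝ)^0*((y:ℝ)^4*(y':ℝ)^1)) +
        (48/25)*((x:ℝ)^4*(x':ℝ)^0*((y:ℝ)^5*(y':ℝ)^0))) := by
    rw [hx, hx', hy, hy']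
    unfold certF
    ring
  rw [key]
  have h0 : 0 ≤ a^2 * b^0 * (1 - a)^1 * (1 - b)^1 := by
    apply mul_nonneg
    apply mul_nonneg
    apply mul_nonneg
    all_goals exact pow_nonneg (by linarith) _
  refine mul_nonneg h0 ?_
  repeat' apply add_nonneg
  all_goals exact mul_nonneg (by norm_num) (mul_nonneg
    (mul_nonneg (pow_nonneg x.2 _) (pow_nonneg x'.2 _))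
    (mul_nonneg (pow_nonneg y.2 _) (pow_nonneg y'.2 _)))

set_option maxHeartbeats 1000000 in
theorem certF_neg_neg {a b : ℝ} (ha0 : 0 ≤ a) (ha1 : a ≤ (1/2)) (hb0 : 0 ≤ b) (hb1 : b ≤ (1/2)) :
    0 ≤ certF (a^2) (-a^3) (b^2) (-b^3) := by
  obtain ⟨x, hx⟩ : ∃ x : NNReal, (x : ℝ) = (2*a) := ⟨⟨(2*a), by linarith⟩, rfl⟩
  obtain ⟨x', hx'⟩ : ∃ x' : NNReal, (x' : ℝ) = 1 - (2*a) := ⟨⟨1 - (2*a), by linarith⟩, rfl⟩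
  obtain ⟨y, hy⟩ : ∃ y : NNReal, (y : ℝ) = (2*b) := ⟨⟨(2*b), by linarith⟩, rfl⟩
  obtain ⟨y', hy'⟩ : ∃ y' : NNReal, (y' : ℝ) = 1 - (2*b) := ⟨⟨1 - (2*b), by linarith⟩, rfl⟩
  have key : certF (a^2) (-a^3) (b^2) (-b^3) =
      a^2 * b^2 * (1 - a)^0 * (1 - b)^0 * (
        (49/50)*((x:ℝ)^0*(x':ℝ)^5*((y:ℝ)^0*(y':ℝ)^5)) +
        (22/5)*((x:ℝ)^0*(x':ℝ)^5*((y:ℝ)^1*(y':ℝ)^4)) +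
        (1461/200)*((x:ℝ)^0*(x':ℝ)^5*((y:ℝ)^2*(y':ℝ)^3)) +
        (1113/200)*((x:ℝ)^0*(x':ℝ)^5*((y:ℝ)^3*(y':ℝ)^2)) +
        (51/25)*((x:ℝ)^0*(x':ℝ)^5*((y:ℝ)^4*(y':ℝ)^1)) +
        (9/25)*((x:ℝ)^0*(x':ℝ)^5*((y:ℝ)^5*(y':ℝ)^0)) +
        (22/5)*((x:ℝ)^1*(x':ℝ)^4*((y:ℝ)^0*(y':ℝ)^5)) +
        (39/2)*((x:ℝ)^1*(x':ℝ)^4*((y:ℝ)^1*(y':ℝ)^4)) +
        (643/20)*((x:ℝ)^1*(x':ℝ)^4*((y:ℝ)^2*(y':ℝ)^3)) +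
        (499/20)*((x:ℝ)^1*(x':ℝ)^4*((y:ℝ)^3*(y':ℝ)^2)) +
        (801/80)*((x:ℝ)^1*(x':ℝ)^4*((y:ℝ)^4*(y':ℝ)^1)) +
        (333/160)*((x:ℝ)^1*(x':ℝ)^4*((y:ℝ)^5*(y':ℝ)^0)) +
        (1461/200)*((x:ℝ)^2*(x':ℝ)^3*((y:ℝ)^0*(y':ℝ)^5)) +
        (643/20)*((x:ℝ)^2*(x':ℝ)^3*((y:ℝ)^1*(y':ℝ)^4)) +
        (42629/800)*((x:ℝ)^2*(x':ℝ)^3*((y:ℝ)^2*(y':ℝ)^3)) +
        (34557/800)*((x:ℝ)^2*(x':ℝ)^3*((y:ℝ)^3*(y':ℝ)^2)) +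
        (15687/800)*((x:ℝ)^2*(x':ℝ)^3*((y:ℝ)^4*(y':ℝ)^1)) +
        (7641/1600)*((x:ℝ)^2*(x':ℝ)^3*((y:ℝ)^5*(y':ℝ)^0)) +
        (1113/200)*((x:ℝ)^3*(x':ℝ)^2*((y:ℝ)^0*(y':ℝ)^5)) +
        (499/20)*((x:ℝ)^3*(x':ℝ)^2*((y:ℝ)^1*(y':ℝ)^4)) +
        (34557/800)*((x:ℝ)^3*(x':ℝ)^2*((y:ℝ)^2*(y':ℝ)^3)) +
        (15353/400)*((x:ℝ)^3*(x':ℝ)^2*((y:ℝ)^3*(y':ℝ)^2)) +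
        (16071/800)*((x:ℝ)^3*(x':ℝ)^2*((y:ℝ)^4*(y':ℝ)^1)) +
        (17631/3200)*((x:ℝ)^3*(x':ℝ)^2*((y:ℝ)^5*(y':ℝ)^0)) +
        (51/25)*((x:ℝ)^4*(x':ℝ)^1*((y:ℝ)^0*(y':ℝ)^5)) +
        (801/80)*((x:ℝ)^4*(x':ℝ)^1*((y:ℝ)^1*(y':ℝ)^4)) +
        (15687/800)*((x:ℝ)^4*(x':ℝ)^1*((y:ℝ)^2*(y':ℝ)^3)) +
        (16071/800)*((x:ℝ)^4*(x':ℝ)^1*((y:ℝ)^3*(y':ℝ)^2)) +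
        (37419/3200)*((x:ℝ)^4*(x':ℝ)^1*((y:ℝ)^4*(y':ℝ)^1)) +
        (21267/6400)*((x:ℝ)^4*(x':ℝ)^1*((y:ℝ)^5*(y':ℝ)^0)) +
        (9/25)*((x:ℝ)^5*(x':ℝ)^0*((y:ℝ)^0*(y':ℝ)^5)) +
        (333/160)*((x:ℝ)^5*(x':ℝ)^0*((y:ℝ)^1*(y':ℝ)^4)) +
        (7641/1600)*((x:ℝ)^5*(x':ℝ)^0*((y:ℝ)^2*(y':ℝ)^3)) +
        (17631/3200)*((x:ℝ)^5*(x':ℝ)^0*((y:ℝ)^3*(y':ℝ)^2)) +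
        (21267/6400)*((x:ℝ)^5*(x':ℝ)^0*((y:ℝ)^4*(y':ℝ)^1)) +
        (2889/3200)*((x:ℝ)^5*(x':ℝ)^0*((y:ℝ)^5*(y':ℝ)^0))) := by
    rw [hx, hx', hy, hy']
    unfold certF
    ring
  rw [key]
  have h0 : 0 ≤ a^2 * b^2 * (1 - a)^0 * (1 - b)^0 := by
    apply mul_nonneg
    apply mul_nonneg
    apply mul_nonneg
    all_goals exact pow_nonneg (by linarith) _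
  refine mul_nonneg h0 ?_
  repeat' apply add_nonneg
  all_goals exact mul_nonneg (by norm_num) (mul_nonneg
    (mul_nonneg (pow_nonneg x.2 _) (pow_nonneg x'.2 _))
    (mul_nonneg (pow_nonneg y.2 _) (pow_nonneg y'.2 _)))

set_option maxHeartbeats 1000000 in
theorem certF_neg_r0 {a b : ℝ} (ha0 : 0 ≤ a) (ha1 : a ≤ (1/2)) (hb0 : (1/2) ≤ b) (hb1 : b ≤ 1) :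
    0 ≤ certF (a^2) (-a^3) (b^2) ((3*b^2 - 1)/2) := by
  obtain ⟨x, hx⟩ : ∃ x : NNReal, (x : ℝ) = (2*a) := ⟨⟨(2*a), by linarith⟩, rfl⟩
  obtain ⟨x', hx'⟩ : ∃ x' : NNReal, (x' : ℝ) = 1 - (2*a) := ⟨⟨1 - (2*a), by linarith⟩, rfl⟩
  obtain ⟨y, hy⟩ : ∃ y : NNReal, (y : ℝ) = (2*b - 1) := ⟨⟨(2*b - 1), by linarith⟩, rfl⟩
  obtain ⟨y', hy'⟩ : ∃ y' : NNReal, (y' : ℝ) = 1 - (2*b - 1) := ⟨⟨1 - (2*b - 1), by linarith⟩, rfl⟩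
  have key : certF (a^2) (-a^3) (b^2) ((3*b^2 - 1)/2) =
      a^2 * b^0 * (1 - a)^0 * (1 - b)^1 * (
        (9/50)*((x:ℝ)^0*(x':ℝ)^5*((y:ℝ)^0*(y':ℝ)^5)) +
        (489/200)*((x:ℝ)^0*(x':ℝ)^5*((y:ℝ)^1*(y':ℝ)^4)) +
        (3387/400)*((x:ℝ)^0*(x':ℝ)^5*((y:ℝ)^2*(y':ℝ)^3)) +
        (589/50)*((x:ℝ)^0*(x':ℝ)^5*((y:ℝ)^3*(y':ℝ)^2)) +
        (33/5)*((x:ℝ)^0*(x':ℝ)^5*((y:ℝ)^4*(y':ℝ)^1)) +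
        (24/25)*((x:ℝ)^0*(x':ℝ)^5*((y:ℝ)^5*(y':ℝ)^0)) +
        (333/320)*((x:ℝ)^1*(x':ℝ)^4*((y:ℝ)^0*(y':ℝ)^5)) +
        (1053/80)*((x:ℝ)^1*(x':ℝ)^4*((y:ℝ)^1*(y':ℝ)^4)) +
        (893/20)*((x:ℝ)^1*(x':ℝ)^4*((y:ℝ)^2*(y':ℝ)^3)) +
        (307/5)*((x:ℝ)^1*(x':ℝ)^4*((y:ℝ)^3*(y':ℝ)^2)) +
        34*((x:ℝ)^1*(x':ℝ)^4*((y:ℝ)^4*(y':ℝ)^1)) +
        (24/5)*((x:ℝ)^1*(x':ℝ)^4*((y:ℝ)^5*(y':ℝ)^0)) +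
        (7641/3200)*((x:ℝ)^2*(x':ℝ)^3*((y:ℝ)^0*(y':ℝ)^5)) +
        (10773/400)*((x:ℝ)^2*(x':ℝ)^3*((y:ℝ)^1*(y':ℝ)^4)) +
        (141243/1600)*((x:ℝ)^2*(x':ℝ)^3*((y:ℝ)^2*(y':ℝ)^3)) +
        (23921/200)*((x:ℝ)^2*(x':ℝ)^3*((y:ℝ)^3*(y':ℝ)^2)) +
        (1317/20)*((x:ℝ)^2*(x':ℝ)^3*((y:ℝ)^4*(y':ℝ)^1)) +
        (234/25)*((x:ℝ)^2*(x':ℝ)^3*((y:ℝ)^5*(y':ℝ)^0)) +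
        (17631/6400)*((x:ℝ)^3*(x':ℝ)^2*((y:ℝ)^0*(y':ℝ)^5)) +
        (41511/1600)*((x:ℝ)^3*(x':ℝ)^2*((y:ℝ)^1*(y':ℝ)^4)) +
        (1996/25)*((x:ℝ)^3*(x':ℝ)^2*((y:ℝ)^2*(y':ℝ)^3)) +
        (10559/100)*((x:ℝ)^3*(x':ℝ)^2*((y:ℝ)^3*(y':ℝ)^2)) +
        (583/10)*((x:ℝ)^3*(x':ℝ)^2*((y:ℝ)^4*(y':ℝ)^1)) +
        (222/25)*((x:ℝ)^3*(x':ℝ)^2*((y:ℝ)^5*(y':ℝ)^0)) +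
        (21267/12800)*((x:ℝ)^4*(x':ℝ)^1*((y:ℝ)^0*(y':ℝ)^5)) +
        (38427/3200)*((x:ℝ)^4*(x':ℝ)^1*((y:ℝ)^1*(y':ℝ)^4)) +
        (6513/200)*((x:ℝ)^4*(x':ℝ)^1*((y:ℝ)^2*(y':ℝ)^3)) +
        (8163/200)*((x:ℝ)^4*(x':ℝ)^1*((y:ℝ)^3*(y':ℝ)^2)) +
        (114/5)*((x:ℝ)^4*(x':ℝ)^1*((y:ℝ)^4*(y':ℝ)^1)) +
        (102/25)*((x:ℝ)^4*(x':ℝ)^1*((y:ℝ)^5*(y':ℝ)^0)) +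
        (2889/6400)*((x:ℝ)^5*(x':ℝ)^0*((y:ℝ)^0*(y':ℝ)^5)) +
        (7893/3200)*((x:ℝ)^5*(x':ℝ)^0*((y:ℝ)^1*(y':ℝ)^4)) +
        (34569/6400)*((x:ℝ)^5*(x':ℝ)^0*((y:ℝ)^2*(y':ℝ)^3)) +
        (4743/800)*((x:ℝ)^5*(x':ℝ)^0*((y:ℝ)^3*(y':ℝ)^2)) +
        (261/80)*((x:ℝ)^5*(x':ℝ)^0*((y:ℝ)^4*(y':ℝ)^1)) +
        (18/25)*((x:ℝ)^5*(x':ℝ)^0*((y:ℝ)^5*(y':ℝ)^0))) := by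
    rw [hx, hx', hy, hy']
    unfold certF
    ring
  rw [key]
  have h0 : 0 ≤ a^2 * b^0 * (1 - a)^0 * (1 - b)^1 := by
    apply mul_nonneg
    apply mul_nonneg
    apply mul_nonneg
    all_goals exact pow_nonneg (by linarith) _
  refine mul_nonneg h0 ?_
  repeat' apply add_nonneg
  all_goals exact mul_nonneg (by norm_num) (mul_nonneg
    (mul_nonneg (pow_nonneg x.2 _) (pow_nonneg x'.2 _))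
    (mul_nonneg (pow_nonneg y.2 _) (pow_nonneg y'.2 _)))

set_option maxHeartbeats 1000000 in
theorem certF_r0_r0 {a b : ℝ} (ha0 : (1/2) ≤ a) (ha1 : a ≤ 1) (hb0 : (1/2) ≤ b) (hb1 : b ≤ 1) :
    0 ≤ certF (a^2) ((3*a^2 - 1)/2) (b^2) ((3*b^2 - 1)/2) := by
  obtain ⟨x, hx⟩ : ∃ x : NNReal, (x : ℝ) = (2*a - 1) := ⟨⟨(2*a - 1), by linarith⟩, rfl⟩
  obtain ⟨x', hx'⟩ : ∃ x' : NNReal, (x' : ℝ) = 1 - (2*a - 1) := ⟨⟨1 - (2*a - 1), by linarith⟩, rfl⟩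
  obtain ⟨y, hy⟩ : ∃ y : NNReal, (y : ℝ) = (2*b - 1) := ⟨⟨(2*b - 1), by linarith⟩, rfl⟩
  obtain ⟨y', hy'⟩ : ∃ y' : NNReal, (y' : ℝ) = 1 - (2*b - 1) := ⟨⟨1 - (2*b - 1), by linarith⟩, rfl⟩
  have key : certF (a^2) ((3*a^2 - 1)/2) (b^2) ((3*b^2 - 1)/2) =
      a^0 * b^0 * (1 - a)^1 * (1 - b)^1 * (
        (2889/12800)*((x:ℝ)^0*(x':ℝ)^5*((y:ℝ)^0*(y':ℝ)^5)) +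
        (7893/6400)*((x:ℝ)^0*(x':ℝ)^5*((y:ℝ)^1*(y':ℝ)^4)) +
        (34569/12800)*((x:ℝ)^0*(x':ℝ)^5*((y:ℝ)^2*(y':ℝ)^3)) +
        (4743/1600)*((x:ℝ)^0*(x':ℝ)^5*((y:ℝ)^3*(y':ℝ)^2)) +
        (261/160)*((x:ℝ)^0*(x':ℝ)^5*((y:ℝ)^4*(y':ℝ)^1)) +
        (9/25)*((x:ℝ)^0*(x':ℝ)^5*((y:ℝ)^5*(y':ℝ)^0)) +
        (7893/6400)*((x:ℝ)^1*(x':ℝ)^4*((y:ℝ)^0*(y':ℝ)^5)) +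
        (2577/400)*((x:ℝ)^1*(x':ℝ)^4*((y:ℝ)^1*(y':ℝ)^4)) +
        (43989/3200)*((x:ℝ)^1*(x':ℝ)^4*((y:ℝ)^2*(y':ℝ)^3)) +
        (6183/400)*((x:ℝ)^1*(x':ℝ)^4*((y:ℝ)^3*(y':ℝ)^2)) +
        (381/40)*((x:ℝ)^1*(x':ℝ)^4*((y:ℝ)^4*(y':ℝ)^1)) +
        (66/25)*((x:ℝ)^1*(x':ℝ)^4*((y:ℝ)^5*(y':ℝ)^0)) +
        (34569/12800)*((x:ℝ)^2*(x':ℝ)^3*((y:ℝ)^0*(y':ℝ)^5)) +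
        (43989/3200)*((x:ℝ)^2*(x':ℝ)^3*((y:ℝ)^1*(y':ℝ)^4)) +
        (46703/1600)*((x:ℝ)^2*(x':ℝ)^3*((y:ℝ)^2*(y':ℝ)^3)) +
        (3433/100)*((x:ℝ)^2*(x':ℝ)^3*((y:ℝ)^3*(y':ℝ)^2)) +
        (118/5)*((x:ℝ)^2*(x':ℝ)^3*((y:ℝ)^4*(y':ℝ)^1)) +
        (189/25)*((x:ℝ)^2*(x':ℝ)^3*((y:ℝ)^5*(y':ℝ)^0)) +
        (4743/1600)*((x:ℝ)^3*(x':ℝ)^2*((y:ℝ)^0*(y':ℝ)^5)) +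
        (6183/400)*((x:ℝ)^3*(x':ℝ)^2*((y:ℝ)^1*(y':ℝ)^4)) +
        (3433/100)*((x:ℝ)^3*(x':ℝ)^2*((y:ℝ)^2*(y':ℝ)^3)) +
        (1077/25)*((x:ℝ)^3*(x':ℝ)^2*((y:ℝ)^3*(y':ℝ)^2)) +
        (158/5)*((x:ℝ)^3*(x':ℝ)^2*((y:ℝ)^4*(y':ℝ)^1)) +
        (264/25)*((x:ℝ)^3*(x':ℝ)^2*((y:ℝ)^5*(y':ℝ)^0)) +
        (261/160)*((x:ℝ)^4*(x':ℝ)^1*((y:ℝ)^0*(y':ℝ)^5)) +
        (381/40)*((x:ℝ)^4*(x':ℝ)^1*((y:ℝ)^1*(y':ℝ)^4)) +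
        (118/5)*((x:ℝ)^4*(x':ℝ)^1*((y:ℝ)^2*(y':ℝ)^3)) +
        (158/5)*((x:ℝ)^4*(x':ℝ)^1*((y:ℝ)^3*(y':ℝ)^2)) +
        23*((x:ℝ)^4*(x':ℝ)^1*((y:ℝ)^4*(y':ℝ)^1)) +
        (36/5)*((x:ℝ)^4*(x':ℝ)^1*((y:ℝ)^5*(y':ℝ)^0)) +
        (9/25)*((x:ℝ)^5*(x':ℝ)^0*((y:ℝ)^0*(y':ℝ)^5)) +
        (66/25)*((x:ℝ)^5*(x':ℝ)^0*((y:ℝ)^1*(y':ℝ)^4)) +
        (189/25)*((x:ℝ)^5*(x':ℝ)^0*((y:ℝ)^2*(y':ℝ)^3)) +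
        (264/25)*((x:ℝ)^5*(x':ℝ)^0*((y:ℝ)^3*(y':ℝ)^2)) +
        (36/5)*((x:ℝ)^5*(x':ℝ)^0*((y:ℝ)^4*(y':ℝ)^1)) +
        (48/25)*((x:ℝ)^5*(x':ℝ)^0*((y:ℝ)^5*(y':ℝ)^0))) := by
    rw [hx, hx', hy, hy']
    unfold certF
    ring
  rw [key]
  have h0 : 0 ≤ a^0 * b^0 * (1 - a)^1 * (1 - b)^1 := by
    apply mul_nonneg
    apply mul_nonneg
    apply mul_nonneg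
    all_goals exact pow_nonneg (by linarith) _
  refine mul_nonneg h0 ?_
  repeat' apply add_nonneg
  all_goals exact mul_nonneg (by norm_num) (mul_nonneg
    (mul_nonneg (pow_nonneg x.2 _) (pow_nonneg x'.2 _))
    (mul_nonneg (pow_nonneg y.2 _) (pow_nonneg y'.2 _)))

/-- The lower end of the range of `c` given `a = √s`. -/
theorem certF_affine {f : ℝ → ℝ} {p q c lo hi : ℝ} (hf : ∀ x, f x = p * x + q)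
    (hlo : 0 ≤ f lo) (hhi : 0 ≤ f hi) (h1 : lo ≤ c) (h2 : c ≤ hi) : 0 ≤ f c := by
  rw [hf] at *
  rcases le_total 0 p with hp | hp <;> nlinarith

end

end Vale.Agent.P154.Ferro3
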