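import Vale.Agent.P154.Class3
import Vale.Agent.P154.Api

/-!
The invariant class for the ferromagnetic three-state Potts channel.
-/

namespace Vale.Agent.P154.Ferro3

open Class3

noncomputable section

/-- Normalised likelihood ratios of a deviation. -/
def rat (u : Fin 3 → ℝ) : Fin 3 → ℝ := fun i => 1 + u i

theorem isPost_rat {u : Fin 3 → ℝ} (h : Dev u) : IsPost (rat u) :=
  ⟨fun i => by simp only [rat]; linarith [h.2 i], by
    have := h.1
    rw [Fin.sum_univ_three] at this
    simp only [rat]; linarith⟩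

theorem ss_eq {u : Fin 3 → ℝ} (h : Dev u) : ss u = dev (rat u) := by
  rw [dev_post (isPost_rat h)]
  simp only [ss, rat, Fin.sum_univ_three]
  push_cast
  ring

theorem dev_smul (c : ℝ) (a : Fin 3 → ℝ) : dev (fun i => c * a i) = c * dev a := by
  rcases eq_or_ne c 0 with rfl | hc
  · simp [dev, mass]
  have hm : mass (fun i => c * a i) = c * mass a := by unfold mass; ring
  rcases eq_or_ne (mass a) 0 with h | h
  · simp [dev, hm, h]
  rw [dev, dev, hm, mul_div_assoc', div_eq_div_iff (by positivity) (by positivity)]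
  ring

theorem cls_smul (c : ℝ) (a : Fin 3 → ℝ) : cls (fun i => c * a i) = c * cls a := by
  rcases eq_or_ne c 0 with rfl | hc
  · simp [cls, dev, mass, pairs]
  have hm : mass (fun i => c * a i) = c * mass a := by unfold mass; ring
  have hp : pairs (fun i => c * a i) = c ^ 2 * pairs a := by unfold pairs; ring
  have hq : 3 / 2 * (c * a 0 * (c * a 1) * (c * a 2)) / (c ^ 2 * pairs a) =
      c * (3 / 2 * (a 0 * a 1 * a 2) / pairs a) := by
    rcases eq_or_ne (pairs a) 0 with h | h
    · simp [h]
    · field_simp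
  simp only [cls, dev_smul, hm, hp, hq]
  ring

/-- Weighted value at the combination of two observations, for degree-one homogeneous `F`. -/
theorem mz_mul_merged {F : (Fin 3 → ℝ) → ℝ} (hF : ∀ c a, F (fun i => c * a i) = c * F a)
    {u v : Fin 3 → ℝ} (hu : Dev u) (hv : Dev v) :
    mz u v * F (rat (merged u v)) = F (fun i => rat u i * rat v i) := by
  rw [← hF]
  congr 1
  funext i
  by_cases hz : mz u v = 0
  · have hs : (∑ i, (1 + u i) * (1 + v i)) = 0 := by
      rcases (div_eq_zero_iff.mp hz) with h | h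
      · exact h
      · norm_num at h
    have h0 : (1 + u i) * (1 + v i) = 0 :=
      (Finset.sum_eq_zero_iff_of_nonneg fun j _ =>
        mul_nonneg (by linarith [hu.2 j]) (by linarith [hv.2 j])).mp hs i (Finset.mem_univ i)
    simp [rat, hz, h0]
  · simp only [rat, merged]
    rw [add_sub_cancel, mul_div_cancel₀ _ hz]

theorem merge_eq {F : (Fin 3 → ℝ) → ℝ} (hF : ∀ c a, F (fun i => c * a i) = c * F a)
    (A B : Law 3) :
    (A.merge (by norm_num) B).E (fun u => F (rat u)) =
      A.E (fun u => B.E (fun v => avg6 F (rat u) (rat v))) := by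
  rw [Law.merge_E]
  refine A.congr fun u hu => ?_
  rw [B.congr (h := fun v => F fun i => rat u i * rat v i) fun v hv => mz_mul_merged hF hu hv,
    ← B.avg]
  refine B.congr fun v hv => ?_
  rw [avg6_eq_sum_perm, Fintype.card_perm, Fintype.card_fin]
  rfl

/-- Monotonicity of iterated expectations. -/
theorem mono₂ (A B : Law 3) {f g : (Fin 3 → ℝ) → (Fin 3 → ℝ) → ℝ}
    (h : ∀ u v, Dev u → Dev v → f u v ≤ g u v) :
    A.E (fun u => B.E (fun v => f u v)) ≤ A.E (fun u => B.E (fun v => g u v)) :=
  A.mono _ _ fun u hu => B.mono _ _ fun v hv => h u v hu hv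

/-- The class value of a law. -/
def clsE (A : Law 3) : ℝ := A.E fun u => cls (rat u)

theorem clsE_eq (A : Law 3) : clsE A = A.E fun u => cls (rat u) := rfl

theorem S_eq (A : Law 3) : A.S = A.E fun u => dev (rat u) := A.congr fun _ hu => ss_eq hu

theorem clsE_le (A : Law 3) : clsE A ≤ A.S / 2 := by
  have h : clsE A ≤ A.E (fun u => 1 / 2 * dev (rat u)) :=
    A.mono _ _ fun u hu => by linarith [cls_le_half_dev (isPost_rat hu)]
  rw [A.smul_fun, ← S_eq] at h
  linarith

theorem closure_law (A B : Law 3) (hA : 0 ≤ clsE A) (hB : 0 ≤ clsE B) :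
    0 ≤ clsE (A.merge (by norm_num) B) := by
  rw [clsE, merge_eq cls_smul]
  by_cases hS : 1 / 2 ≤ A.S
  · have h := mono₂ A B (f := fun u _ => dev (rat u) - 1 / 2)
      (g := fun u v => avg6 cls (rat u) (rat v)) fun u v hu hv => by
        linarith [avg6_dev_ge_left (isPost_rat hu) (isPost_rat hv),
          avg6_dev_sub_half_le (isPost_rat hu) (isPost_rat hv)]
    simp only [B.const] at h
    rw [A.sub_fun, A.const, ← S_eq] at h
    linarith
  by_cases hT : 1 / 2 ≤ B.S
  · have h := mono₂ A B (f := fun _ v => dev (rat v) - 1 / 2)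
      (g := fun u v => avg6 cls (rat u) (rat v)) fun u v hu hv => by
        have hsym : avg6 dev (rat u) (rat v) = avg6 dev (rat v) (rat u) := by
          simp only [avg6, comb, dev, mass, Matrix.cons_val]; ring
        linarith [avg6_dev_ge_left (isPost_rat hv) (isPost_rat hu),
          avg6_dev_sub_half_le (isPost_rat hu) (isPost_rat hv)]
    simp only [B.sub_fun, B.const, ← S_eq, A.const] at h
    linarith
  have h := mono₂ A B
    (f := fun u v => cls (rat u) + (1 - 2 * dev (rat u) + 2 * cls (rat u)) * cls (rat v) +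
      (-2 * cls (rat u)) * dev (rat v))
    (g := fun u v => avg6 cls (rat u) (rat v)) fun u v hu hv => by
      linarith [avg6_cls_ge (isPost_rat hu) (isPost_rat hv)]
  simp only [B.add_fun, B.smul_fun, B.const, ← S_eq, ← clsE_eq] at h
  rw [show (fun u => cls (rat u) + (1 - 2 * dev (rat u) + 2 * cls (rat u)) * clsE B +
      -2 * cls (rat u) * B.S) = fun u => clsE B + (1 + 2 * clsE B - 2 * B.S) * cls (rat u) +
      (-2 * clsE B) * dev (rat u) from by funext u; ring] at h
  simp only [A.add_fun, A.smul_fun, A.const, ← S_eq, ← clsE_eq] at h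
  push Not at hS hT
  nlinarith [mul_nonneg hA hB, mul_nonneg hA (sub_nonneg.2 hT.le),
    mul_nonneg hB (sub_nonneg.2 hS.le)]

theorem subadd_law (A B : Law 3) (hA : 0 ≤ clsE A) (hB : 0 ≤ clsE B) :
    (A.merge (by norm_num) B).S ≤ A.S + B.S - 1 / 50 * A.S * B.S := by
  rw [S_eq, merge_eq dev_smul]
  have h := mono₂ A B (f := fun u v => avg6 dev (rat u) (rat v))
    (g := fun u v => dev (rat u) + (1 - cls (rat u) - dev (rat u) / 50) * dev (rat v) +
      (2 * cls (rat u) - dev (rat u)) * cls (rat v)) fun u v hu hv => by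
      linarith [avg6_dev_le (isPost_rat hu) (isPost_rat hv)]
  refine h.trans ?_
  simp only [B.add_fun, B.smul_fun, B.const, ← S_eq, ← clsE_eq]
  rw [show (fun u => dev (rat u) + (1 - cls (rat u) - dev (rat u) / 50) * B.S +
      (2 * cls (rat u) - dev (rat u)) * clsE B) = fun u => B.S +
      (1 - B.S / 50 - clsE B) * dev (rat u) + (2 * clsE B - B.S) * cls (rat u) from by
    funext u; ring]
  simp only [A.add_fun, A.smul_fun, A.const, ← S_eq, ← clsE_eq]
  nlinarith [mul_le_mul_of_nonneg_left (clsE_le B) hA, mul_le_mul_of_nonneg_left (clsE_le A) hB]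

theorem clsE_leaf : 0 ≤ clsE (Law.leaf (q := 3) (by norm_num)) := by
  have h : ∀ k : Fin 3, cls (rat (vertex k)) = 1 / 2 := fun k => by
    refine (of_dev_eq_one (isPost_rat (dev_vertex k)) ?_).2
    rw [← ss_eq (dev_vertex k)]
    fin_cases k <;> simp [ss, vertex, Fin.sum_univ_three] <;> norm_num
  rw [clsE, Law.leaf_E]
  simp only [h, Finset.sum_const, Finset.card_univ, Fintype.card_fin, nsmul_eq_mul]
  norm_num

theorem clsE_unit : 0 ≤ clsE (Law.unit 3) := by
  show 0 ≤ cls (rat 0)
  norm_num [cls, dev, mass, pairs, rat]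

theorem clsE_scale (A : Law 3) {lam : ℝ} (h0 : 0 ≤ lam) (h1 : lam ≤ 1) (hA : 0 ≤ clsE A) :
    0 ≤ clsE (A.scale (by norm_num) lam (lam_lower (by norm_num) h0) h1) := by
  rw [clsE, Law.scale_E]
  refine le_trans (mul_nonneg (pow_nonneg h0 3) hA) ?_
  rw [clsE, ← A.smul_fun]
  refine A.mono _ _ fun u hu => ?_
  have e : rat (fun i => lam * u i) = shrink lam (rat u) := by
    funext i; simp [rat, shrink]
  rw [e]
  exact cls_shrink_ge (isPost_rat hu) h0 h1

/-- The certificate for three states. -/
theorem ferroCert_three : FerroCert 3 (by norm_num) :=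
  ⟨fun A => 0 ≤ clsE A, 1 / 50, 1, by norm_num, by norm_num, le_rfl, clsE_leaf, clsE_unit,
    fun A _ h0 h1 hA => clsE_scale A h0 h1 hA,
    fun A B hA hB => ⟨closure_law A B hA hB, by simpa using subadd_law A B hA hB⟩⟩

end

end Vale.Agent.P154.Ferro3
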